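import Vale.Agent.P057.Main3

/-!
Smaller constants in the Rankin lower bound for sets without progressions of length k,
for every k of size at least 5.
-/

namespace Vale.Agent.Results.P057.RankinConstant

open Filter Real Finset

theorem result : ∀ n : ℕ, 3 ≤ n → ∀ K ε ρ₀ ρ₁ : ℝ,
    K = (n : ℝ) * 2 ^ (((n : ℝ) - 1) / 2) * Real.log 2 ^ (((n : ℝ) - 1) / n) →
    ε = (Real.logb 2 (64 / 17) / 2) ^ ((1 : ℝ) / n) →
    ρ₀ = (Real.logb 2 ((2 ^ (n - 2) + 1).choose ((2 ^ (n - 2) + 1) / 2)) / 2 ^ (n - 2))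
      ^ ((1 : ℝ) / n) →
    ρ₁ = (∏ t ∈ Finset.range (n - 2),
      Real.logb 2 ((2 ^ (2 ^ (t + 1) - 1)
        + (2 ^ (t + 1) - 1).choose ((2 ^ (t + 1) - 1) / 2) : ℕ) : ℝ) / 2 ^ (t + 1))
      ^ ((1 : ℝ) / n) →
    (K * ε < K ∧ K * ε * ρ₀ < K * ε ∧
      K * ε * ρ₁ ≤ K * ε * (Real.logb 2 3 / 2) ^ ((1 : ℝ) / n)) ∧
    (∀ k : ℕ, 2 ^ (n - 1) < k → k ≤ 2 ^ n → Nat.clog 2 k = n) ∧
    ∀ (k : ℕ) (C : ℝ),
      (2 ^ (n - 1) < k ∧ K * ε < C) ∨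
      (3 * 2 ^ (n - 2) + 2 ≤ k ∧ K * ε * ρ₀ < C) ∨
      (2 ^ n ≤ k ∧ K * ε * ρ₁ < C) →
        ∀ᶠ N : ℕ in atTop, ∃ A : Finset ℕ, A ⊆ Finset.Icc 1 N ∧
          (N : ℝ) * Real.exp (-C * Real.log N ^ ((1 : ℝ) / n)) ≤ A.card ∧
          ∀ a d : ℕ, 0 < d → ∃ i < k, a + i * d ∉ A := by
  intro n hn K ε ρ₀ ρ₁ hK hε hρ₀ hρ₁
  subst hK hε hρ₀ hρ₁
  have hl : 0 < Real.log 2 := Real.log_pos one_lt_two
  have hn0 : (0 : ℝ) < n := by exact_mod_cast (show 0 < n by omega)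
  refine ⟨_root_.P057.main3_lt hn _ (by positivity), fun k h1 h2 => ?_, ?_⟩
  · refine le_antisymm (Nat.clog_le_of_le_pow h2) ?_
    have := (Nat.lt_clog_iff_pow_lt (b := 2) one_lt_two).2 h1
    omega
  · rintro k C (⟨hk, hC⟩ | ⟨hk, hC⟩ | ⟨hk, hC⟩)
    · exact _root_.P057.main3_all hn hk hC
    · exact _root_.P057.main3_mid hn hk hC
    · exact _root_.P057.main3_top hn hk hC

end Vale.Agent.Results.P057.RankinConstant
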